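import Crest.Agent.X261.B88.Defs
import Crest.Agent.X261.Fib.Ind
import Crest.Agent.X261.Frb.Main
import Crest.Agent.X261.Cov.B

/-!
# Row 261, B (helper88), file `Bas`: basic facts on the reduced Albanese datum

* group theory of `MG`, `KG`; the matrix `Lm` of the linear part, `norm_det`;
* `dat` : the data of FIB; `prop`, `prop_fi` : properness; `fg_MG`;
* `dW_ne`, `a_hol`, `a_tr`, `a_eqv`, `tau_ne`, `up_sub` : the easy fields of `Frm` and `Up`.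
-/

set_option autoImplicit false
set_option linter.unusedSectionVars false

open Set Filter Topology
open scoped commutatorElement

namespace Crest.Agent.X261.B88

open Crest.Agent.R275.Geo Crest.Agent.R275.Core144
open Crest.Agent.R273.UCov_914
open Crest.Agent.R281.ThnM_280 (Crit surj_of_not_crit)
open Crest.Agent.R189 (Amen)
open Crest.Agent.X261.Grp Crest.Agent.X261.End
open Crest.Agent.X261.Top (dW)
open Crest.Agent.X261.Rel (aV)
open Crest.Agent.X261.Fib (E)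

noncomputable section

/-- a group acting cocompactly on a connected set is finitely generated -/
theorem fg_of_conn {M G : Type*} [TopologicalSpace M] [Group G] [MulAction G M]
    [ContinuousConstSMul G M] (K : Subgroup G) {F U : Set M} (hF : IsPreconnected F)
    (hne : F.Nonempty) (hinv : ∀ g ∈ K, ∀ x ∈ F, g • x ∈ F) (hU : IsOpen U)
    (hc : ∀ x ∈ F, ∃ g ∈ K, g • x ∈ U) (hfin : {g : G | ∃ e ∈ U, g • e ∈ U}.Finite) : K.FG := by
  set S : Set G := {g : G | ∃ e ∈ U, g • e ∈ U} ∩ K with hS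
  have hle : Subgroup.closure S ≤ K := (Subgroup.closure_le K).2 inter_subset_right
  refine (Subgroup.fg_iff K).2 ⟨S, le_antisymm hle fun g hg => ?_, hfin.inter_of_left _⟩
  by_contra hn
  have ho : ∀ T : Set G, IsOpen (⋃ h ∈ T, (fun x : M => h • x) ⁻¹' U) := fun T =>
    isOpen_biUnion fun h _ => hU.preimage (continuous_const_smul h)
  obtain ⟨x, hx⟩ := hne
  obtain ⟨k, hk, hkx⟩ := hc x hx
  obtain ⟨y, -, h1, h2⟩ := hF _ _ (ho (Subgroup.closure S)) (ho (K \ Subgroup.closure S))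
    (fun z hz => by
      obtain ⟨h, hh, h1⟩ := hc z hz
      by_cases h2 : h ∈ Subgroup.closure S
      · exact Or.inl (mem_biUnion h2 h1)
      · exact Or.inr (mem_biUnion (show h ∈ (K : Set G) \ Subgroup.closure S from ⟨hh, h2⟩) h1))
    ⟨k • x, hinv k hk x hx, mem_biUnion (Subgroup.closure S).one_mem (by simpa using hkx)⟩
    ⟨g⁻¹ • k • x, hinv _ (K.inv_mem hg) _ (hinv k hk x hx),
      mem_biUnion (show g ∈ (K : Set G) \ Subgroup.closure S from ⟨hg, hn⟩) (by simpa using hkx)⟩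
  obtain ⟨a, ha, h3⟩ := mem_iUnion₂.1 h1
  obtain ⟨b, hb, h4⟩ := mem_iUnion₂.1 h2
  have h5 : b * a⁻¹ ∈ Subgroup.closure S := Subgroup.subset_closure
    ⟨⟨a • y, h3, by rw [mul_smul, inv_smul_smul]; exact h4⟩, K.mul_mem hb.1 (K.inv_mem (hle ha))⟩
  exact hb.2 (by simpa using (Subgroup.closure S).mul_mem h5 ha)

theorem fg_map {G G' : Type*} [Group G] [Group G'] {K : Subgroup G} (h : K.FG) (f : G →* G') :
    (K.map f).FG := by
  classical
  obtain ⟨S, rfl⟩ := h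
  exact ⟨S.image f, by rw [Finset.coe_image, MonoidHom.map_closure]⟩

variable {n : ℕ} {X : Type} [TopologicalSpace X] {A : Atl n X} {Γ : Type} [Group Γ]
  {D : MonD A Γ} {N : Subgroup Γ} {q : ℕ} (Z : AQ D N q)

/-! ### groups -/

theorem a_H {g : Γ} (hg : g ∈ Z.H) (e : D.cov Γ) : Z.a (g • e) = Z.a e + Z.lam g := by
  rw [Z.eqv, Z.LH g hg]; rfl

theorem MG_le : MG Z ≤ Z.H := fun _ h => h.1

theorem a_MG {g : Γ} (hg : g ∈ MG Z) (e : D.cov Γ) : Z.a (g • e) = Z.a e := hg.2 e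

theorem mem_MG [Nonempty (D.cov Γ)] {g : Γ} : g ∈ MG Z ↔ g ∈ Z.H ∧ Z.lam g = 0 :=
  and_congr_right fun hg => ⟨fun h => by
    obtain ⟨e⟩ := ‹Nonempty (D.cov Γ)›
    have h1 := h e
    rwa [a_H Z hg, add_eq_left] at h1, fun h e => by rw [a_H Z hg, h, add_zero]⟩

instance normal_MG : (MG Z).Normal := ⟨fun m hm g => ⟨Z.normal.conj_mem m hm.1 g, fun e => by
  rw [mul_smul, mul_smul, Z.eqv g, hm.2, ← Z.eqv, smul_inv_smul]⟩⟩

instance normal_KG [N.Normal] : (KG Z).Normal :=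
  (normal_MG Z).map _ (QuotientGroup.mk'_surjective N)

theorem lam_addOn [Nonempty (D.cov Γ)] : AddOn Z.H Z.lam := lam_add Z.eqv Z.LH

theorem comm_mem [Nonempty (D.cov Γ)] {g h : Γ} (hg : g ∈ Z.H) (hh : h ∈ Z.H) : ⁅g, h⁆ ∈ MG Z :=
  (mem_MG Z).2 ⟨comm_self_le _ (Subgroup.commutator_mem_commutator hg hh), (lam_addOn Z).comm hg hh⟩

theorem vam_MG [Nonempty (D.cov Γ)] : VAm (MG Z) := ⟨Z.H, Z.fi, fun _ ha _ hb => comm_mem Z ha hb⟩

theorem amen_quot [Nonempty (D.cov Γ)] : Amen (Γ ⧸ MG Z) := ((va_quot_iff _).2 (vam_MG Z)).amen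

theorem infinite_KG [Nonempty (D.cov Γ)] [N.Normal] (hJ : JN (Γ ⧸ N)) : Infinite (KG Z) := by
  by_contra h
  rw [not_infinite_iff_finite] at h
  have := hJ.fg
  exact hJ.not_vam_bot
    (((vam_MG Z).map _ (QuotientGroup.mk'_surjective N)).of_fi (FI.bot_iff.2 h))

/-! ### the linear part -/

/-- the matrix of `L g` -/
def Lm (g : Γ) : Matrix (Fin q) (Fin q) ℂ := Matrix.of (Frb.Main.row (Z.L g))

theorem L_apply (g : Γ) (v : Cn q) (k : Fin q) : Z.L g v k = ∑ k', Lm Z g k k' * v k' :=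
  (Frb.Main.row_dot (Z.L g) k v).symm

theorem Lm_mul (g h : Γ) : Lm Z (g * h) = Lm Z g * Lm Z h := by
  ext k a
  change Z.L (g * h) _ k = _
  rw [map_mul, mul_apply_eq_comp, L_apply]
  rfl

theorem Lm_H {g : Γ} (hg : g ∈ Z.H) : Lm Z g = 1 := by
  ext k a
  change Z.L g _ k = _
  rw [Z.LH g hg, Matrix.one_apply]
  simp

theorem Lm_pow (g : Γ) (k : ℕ) : Lm Z (g ^ k) = Lm Z g ^ k := by
  induction k with
  | zero => rw [pow_zero, pow_zero, Lm_H Z Z.H.one_mem]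
  | succ k ih => rw [pow_succ, Lm_mul, ih, pow_succ]

theorem norm_det (g : Γ) : ‖(Lm Z g).det‖ = 1 := by
  have := Z.fi
  obtain ⟨k, hk, h1⟩ := (FI.of_finiteIndex Z.H).pow_mem (Subgroup.mem_top g)
  have h2 := congrArg (fun B : Matrix (Fin q) (Fin q) ℂ => ‖B.det‖) (Lm_H Z h1)
  simp only [Lm_pow, Matrix.det_pow, norm_pow, Matrix.det_one, norm_one] at h2
  exact (pow_eq_one_iff_of_nonneg (norm_nonneg _) hk.ne').1 h2

theorem det_ne (g : Γ) : (Lm Z g).det ≠ 0 := fun h => by simpa [h] using norm_det Z g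

theorem a_apply (g : Γ) (e : D.cov Γ) (k : Fin q) :
    Z.a (g • e) k = ∑ k', Lm Z g k k' * Z.a e k' + Z.lam g k := by
  rw [Z.eqv, ← L_apply]; rfl

theorem L_inv (g : Γ) (v : Cn q) : Z.L g⁻¹ (Z.L g v) = v := by
  rw [← mul_apply_eq_comp, ← map_mul, inv_mul_cancel, map_one]; rfl

/-- `L g` as an equivalence -/
def Le (g : Γ) : Cn q ≃L[ℂ] Cn q :=
  ContinuousLinearEquiv.equivOfInverse (Z.L g) (Z.L g⁻¹) (L_inv Z g)
    fun v => by simpa using L_inv Z g⁻¹ v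

/-- `L g` on `Fin q → ℂ` -/
def LE (g : Γ) : E q ≃L[ℂ] E q :=
  ((EuclideanSpace.equiv (Fin q) ℂ).symm.trans (Le Z g)).trans (EuclideanSpace.equiv (Fin q) ℂ)

theorem LE_apply (g : Γ) (v : Cn q) : LE Z g v.ofLp = (Z.L g v).ofLp := rfl

/-! ### the data of FIB, properness -/

theorem disc_E : ∃ c : ℝ, 0 < c ∧ ∀ g ∈ Z.H, (Z.lam g).ofLp ≠ 0 → c ≤ ‖(Z.lam g).ofLp‖ := by
  obtain ⟨c, hc, h⟩ := Z.disc
  let T : E q →L[ℂ] Cn q := (EuclideanSpace.equiv (Fin q) ℂ).symm.toContinuousLinearMap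
  refine ⟨c / (‖T‖ + 1), by positivity, fun g hg h0 => ?_⟩
  have h1 := h g hg fun h2 => h0 (by rw [h2]; rfl)
  have h2 : ‖Z.lam g‖ ≤ ‖T‖ * ‖(Z.lam g).ofLp‖ := T.le_opNorm (Z.lam g).ofLp
  rw [div_le_iff₀ (by positivity)]
  nlinarith [norm_nonneg (Z.lam g).ofLp]

theorem dat (h : Top Z) : Fib.Mn.Dat D Z.H Z.a (LE Z) fun g => (Z.lam g).ofLp :=
  ⟨Z.hol, fun g e => by rw [Z.eqv]; rfl, fun g hg v => by
    change (Z.L g (WithLp.toLp 2 v)).ofLp = v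
    rw [Z.LH g hg]; rfl, disc_E Z, h⟩

theorem cont_a : Continuous Z.a := Fib.Sec.cont_of_hol Z.hol

theorem not_crit_deck (g : Γ) {e : D.cov Γ} (h : e ∉ Crit (D.atl Γ) univ Z.a) :
    g • e ∉ Crit (D.atl Γ) univ Z.a :=
  Fib.Sec.not_crit_deck D (L := LE Z) (lam := fun g => (Z.lam g).ofLp)
    (fun g e => by rw [Z.eqv]; rfl) g h

theorem Fb.top {Z : AQ D N q} (h : Fb Z) : Top Z := by
  obtain ⟨O, -, ⟨t, ht⟩, h1⟩ := h
  obtain ⟨⟨e, he⟩, -, h2⟩ := h1 t ht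
  exact ⟨e, h2 e he⟩

section cpt

variable [CompactSpace X] [T2Space X] [Finite A.ι]

/-- `a` is proper modulo `MG` -/
theorem prop {K : Set (Cn q)} (hK : IsCompact K) :
    ∃ C : Set (D.cov Γ), IsCompact C ∧ ∀ e, Z.a e ∈ K → ∃ g ∈ MG Z, g • e ∈ C := by
  rcases isEmpty_or_nonempty (D.cov Γ) with h | h
  · exact ⟨∅, isCompact_empty, fun e => h.elim e⟩
  have := Z.fi
  have hc := (EuclideanSpace.equiv (Fin q) ℂ).continuous
  obtain ⟨C0, hC0, hf0⟩ := D.exists_fund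
  obtain ⟨C, hC, hf⟩ := Fib.Sec.exists_fund_sub (H := Z.H) hC0 hf0
  obtain ⟨C', h1, h2⟩ := Fib.Sec.prop_of (a := fun e => (Z.a e).ofLp)
    (lam := fun g => (Z.lam g).ofLp) (hc.comp (cont_a Z)) (fun g hg e => by rw [a_H Z hg]; rfl)
    (disc_E Z) hC hf (hK.image hc)
  refine ⟨C', h1, fun e he => ?_⟩
  obtain ⟨g, hg, h3, h4⟩ := h2 e ⟨_, he, rfl⟩
  exact ⟨g, (mem_MG Z).2 ⟨hg, congrArg (WithLp.toLp 2) h3⟩, h4⟩

/-- `a` is proper modulo a subgroup of finite index of `MG` -/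
theorem prop_fi {M : Subgroup Γ} (hM : FI M (MG Z)) {K : Set (Cn q)} (hK : IsCompact K) :
    ∃ C : Set (D.cov Γ), IsCompact C ∧ ∀ e, Z.a e ∈ K → ∃ g ∈ M, g • e ∈ C := by
  obtain ⟨C, h1, h2⟩ := prop Z hK
  obtain ⟨T, -, h3⟩ := hM.exists_cover
  refine ⟨⋃ t ∈ T, (fun e => t⁻¹ • e) '' C,
    T.isCompact_biUnion fun t _ => h1.image (continuous_const_smul _), fun e he => ?_⟩
  obtain ⟨g, hg, h4⟩ := h2 e he
  obtain ⟨t, ht, h5⟩ := h3 g hg
  exact ⟨_, h5, mem_iUnion₂.2 ⟨t, ht, _, h4, (mul_smul _ _ _).symm⟩⟩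

/-- the periods are cocompact on the cover -/
theorem exists_fund_H : ∃ C : Set (D.cov Γ), IsCompact C ∧ ∀ e, ∃ g ∈ Z.H, g • e ∈ C := by
  have := Z.fi
  obtain ⟨C0, hC0, hf0⟩ := D.exists_fund
  exact Fib.Sec.exists_fund_sub (H := Z.H) hC0 hf0

theorem surj_a [PreconnectedSpace (D.cov Γ)] (h : Top Z) : Function.Surjective Z.a := by
  have := Z.fi
  obtain ⟨S, hS⟩ := (dat Z h).exists_of
  intro t
  obtain ⟨e, he⟩ := hS.onto t.ofLp
  rw [hS.a_eq] at he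
  exact ⟨e, congrArg (WithLp.toLp 2) he⟩

theorem fg_MG {Z : AQ D N q} (h : Fb Z) : (MG Z).FG := by
  obtain ⟨O, -, ⟨t, ht⟩, h1⟩ := h
  obtain ⟨h2, h3, -⟩ := h1 t ht
  obtain ⟨C, hC, h4⟩ := prop Z (isCompact_singleton (x := t))
  have := Cov.B.locallyCompact D (F := Γ)
  obtain ⟨C', h5, h6⟩ := exists_compact_superset hC
  refine fg_of_conn (MG Z) h3 h2 (fun g hg e he => (hg.2 e).trans he) isOpen_interior
    (fun e he => (h4 e he).imp fun g hg => ⟨hg.1, h6 hg.2⟩) ((D.finite_deck h5 h5).subset ?_)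
  rintro g ⟨e, h7, h8⟩
  exact ⟨e, interior_subset h7, interior_subset h8⟩

theorem fg_KG [N.Normal] {Z : AQ D N q} (h : Fb Z) : (KG Z).FG := fg_map (fg_MG h) _

end cpt

/-! ### the easy fields of `Frm` and `Up` -/

theorem a_diff (i : A.ι) (v : Γ) :
    DifferentiableOn ℂ (fun z => aV D Z.a i v ((A.e i).symm z)) (A.e i).target := Z.hol (i, v)

theorem surj_aV {i : A.ι} {v : Γ} {x : X} (hx : x ∈ (A.e i).source)
    (h : D.pt i v x ∉ Crit (D.atl Γ) univ Z.a) :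
    Function.Surjective (fderiv ℂ (fun z => aV D Z.a i v ((A.e i).symm z)) (A.e i x)) :=
  surj_of_not_crit (mem_univ _) h (i := (i, v)) (D.pt_mem_source (p := (i, v)) hx)

theorem q_le (h : Top Z) : q ≤ n := by
  obtain ⟨e, he⟩ := h
  obtain ⟨p, hp⟩ := (D.atl Γ).cover e
  have h1 := LinearMap.finrank_le_finrank_of_surjective
    (f := (fderiv ℂ (fun z => Z.a (((D.atl Γ).e p).symm z)) ((D.atl Γ).e p e) : Cn n →ₗ[ℂ] Cn q))
    (surj_of_not_crit (mem_univ _) he hp)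
  rwa [finrank_euclideanSpace_fin, finrank_euclideanSpace_fin] at h1

theorem dW_ne {i : A.ι} {v : Γ} {x : X} (hx : x ∈ (A.e i).source)
    (h : D.pt i v x ∉ Crit (D.atl Γ) univ Z.a) : dW A i (aV D Z.a i v) x ≠ 0 := by
  rw [Frb.Main.dW_eq ((a_diff Z i v).differentiableAt
    ((A.e i).open_target.mem_nhds ((A.e i).map_source hx)))]
  exact Frb.Main.wdg_row_ne (Nat.add_sub_cancel' (q_le Z ⟨_, h⟩)) (surj_aV Z hx h)

theorem dW_ne' {i : A.ι} {e : D.cov Γ} (he : D.pr e ∈ (A.e i).source)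
    (h : e ∉ Crit (D.atl Γ) univ Z.a) : dW A i (aV D Z.a i (D.co i e)) (D.pr e) ≠ 0 :=
  dW_ne Z he (by rwa [D.pt_co he])

theorem a_hol (i : A.ι) (v : Γ) (k : Fin q) : HolAt A i univ fun x => aV D Z.a i v x k :=
  ((EuclideanSpace.proj k : Cn q →L[ℂ] ℂ).differentiable.comp_differentiableOn
    (a_diff Z i v)).mono inter_subset_left

theorem aV_tr {W : Type*} (f : D.cov Γ → W) {i j : A.ι} (v : Γ) {x y : X}
    (hx : x ∈ (A.e i).source ∩ (A.e j).source) (hy : y ∈ (A.e i).source ∩ (A.e j).source) :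
    aV D f i v y = aV D f j (D.c i j x * v) y := by
  rw [D.c_loc i j x hx y hy]
  exact congrArg f (D.pt_eq v hy.1 hy.2)

theorem a_tr (i j : A.ι) (v : Γ) : ∀ x ∈ (A.e i).source ∩ (A.e j).source, ∃ l : Cn q,
    ∀ y ∈ (A.e i).source ∩ (A.e j).source, aV D Z.a i v y = aV D Z.a j (D.c i j x * v) y + l :=
  fun _ hx => ⟨0, fun _ hy => by rw [add_zero, aV_tr Z.a v hx hy]⟩

theorem aV_deck (g : Γ) (i : A.ι) (v : Γ) (x : X) (k : Fin q) :
    aV D Z.a i (v * g⁻¹) x k = ∑ k', Lm Z g k k' * aV D Z.a i v x k' + Z.lam g k := by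
  unfold aV
  rw [← D.deck_pt, a_apply]

theorem a_eqv (g : Γ) : ∃ L : Matrix (Fin q) (Fin q) ℂ, ‖L.det‖ = 1 ∧ ∀ i v, ∃ l : Fin q → ℂ,
    ∀ x ∈ (A.e i).source, ∀ k,
      aV D Z.a i (v * g⁻¹) x k = ∑ k', L k k' * aV D Z.a i v x k' + l k :=
  ⟨Lm Z g, norm_det Z g, fun i v => ⟨fun k => Z.lam g k, fun x _ k => aV_deck Z g i v x k⟩⟩

theorem tau_ne (h : Top Z) : ∃ i v, ∃ x ∈ (A.e i).source, dW A i (aV D Z.a i v) x ≠ 0 := by
  obtain ⟨e, he⟩ := h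
  obtain ⟨i, hi⟩ := A.cover (D.pr e)
  exact ⟨i, D.co i e, D.pr e, hi, dW_ne' Z hi he⟩

theorem al_N : ∀ g ∈ N, ∀ e, Z.a (g • e) = Z.a e + Z.lam g := fun _ hg => a_H Z (Z.le hg)

theorem up_sub (P : Subgroup Γ) (hP : P ≤ N)
    (h : ∀ t ∈ Submodule.span ℝ (Z.lam '' P), Complex.I • t ∈ Submodule.span ℝ (Z.lam '' P)) :
    ∀ g ∈ P, Z.lam g = 0 :=
  fun g hg => Z.sub _ (image_mono hP) h _ ⟨g, hg, rfl⟩

end

end Crest.Agent.X261.B88
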