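import Crest.Agent.X261.End.U
import Crest.Agent.X261.Rel.Defs
import Crest.Agent.X261.Gauss.Stm
import Crest.Agent.X261.E0.Defs
import Crest.Agent.X261.Bog.Defs

/-!
# Row 261, B (helper88), file `Defs`: the packages of the amenable half

* `MG Z`   : the kernel of the periods;
* `Top Z`  : the map `a` has a regular point;
* `Fb Z`   : the fibres over a nonempty open set are connected and regular;
* `SetupStmt`, `FibStmt`, `FamStmt`, `NIStmt`, `RelStmt`.
-/

set_option autoImplicit false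
set_option linter.unusedSectionVars false

open Set

namespace Crest.Agent.X261.B88

open Crest.Agent.R275.Geo Crest.Agent.R275.Core144 Crest.Agent.R275.GC293
open Crest.Agent.R273.Defs_333 Crest.Agent.R273.Kah_333 Crest.Agent.R273.UCov_914
open Crest.Agent.R281.ThnM_280 (Crit)
open Crest.Agent.R189 (Amen)
open Crest.Agent.X261.Grp Crest.Agent.X261.End
open Crest.Agent.X261.Rel.Act (Act)

noncomputable section

section defs

variable {n : ℕ} {X : Type} [TopologicalSpace X] {A : Atl n X} {Γ : Type} [Group Γ]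
  {D : MonD A Γ} {N : Subgroup Γ} {q : ℕ}

/-- the elements of `H` which fix the map `a` -/
def MG (Z : AQ D N q) : Subgroup Γ where
  carrier := {g | g ∈ Z.H ∧ ∀ e, Z.a (g • e) = Z.a e}
  one_mem' := ⟨Z.H.one_mem, fun e => by rw [one_smul]⟩
  mul_mem' := fun {g h} hg hh => ⟨Z.H.mul_mem hg.1 hh.1, fun e => by rw [mul_smul, hg.2, hh.2]⟩
  inv_mem' := fun {g} hg => ⟨Z.H.inv_mem hg.1, fun e => by rw [← hg.2, smul_inv_smul]⟩

/-- the image of `MG` in the quotient -/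
def KG [N.Normal] (Z : AQ D N q) : Subgroup (Γ ⧸ N) := (MG Z).map (QuotientGroup.mk' N)

/-- `a` has a regular point -/
def Top (Z : AQ D N q) : Prop := ∃ e, e ∉ Crit (D.atl Γ) univ Z.a

/-- connected regular fibres -/
def Fb (Z : AQ D N q) : Prop :=
  ∃ O : Set (Cn q), IsOpen O ∧ O.Nonempty ∧ ∀ t ∈ O, (Z.a ⁻¹' {t}).Nonempty ∧
    IsPreconnected (Z.a ⁻¹' {t}) ∧ ∀ e, Z.a e = t → e ∉ Crit (D.atl Γ) univ Z.a

end defs

/-- B0 (helper31) -/
def SetupStmt : Prop :=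
  ∀ (n : ℕ) (X : Type) [TopologicalSpace X] [T2Space X] [CompactSpace X] [ConnectedSpace X]
    (A : Atl n X) [Finite A.ι], GoodA A → Part A → Kah A → E0.NoBog A → Bog.NoBog A →
    ∀ (Γ : Type) [Group Γ] (D : MonD A Γ), SimplyConnectedSpace (D.cov Γ) →
    ∀ (N : Subgroup Γ) [N.Normal], ∃ (q : ℕ) (Z : AQ D N q), Top Z

/-- FIB (helper16) -/
def FibStmt : Prop :=
  ∀ (n : ℕ) (X : Type) [TopologicalSpace X] [T2Space X] [CompactSpace X] [ConnectedSpace X]
    (A : Atl n X) [Finite A.ι], GoodA A → Part A → Kah A → E0.NoBog A → Bog.NoBog A →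
    ∀ (Γ : Type) [Group Γ] (D : MonD A Γ), ConnectedSpace (D.cov Γ) →
    ∀ (N : Subgroup Γ) (q : ℕ) (Z : AQ D N q), Top Z → Fb Z

/-- FAM (helpers 3, 12, 94, 20, 79) -/
def FamStmt : Prop :=
  ∀ (n : ℕ) (X : Type) [TopologicalSpace X] [T2Space X] [CompactSpace X] [ConnectedSpace X]
    (A : Atl n X) [Finite A.ι], GoodA A → Part A → Kah A →
    ∀ (Γ : Type) [Group Γ] (D : MonD A Γ), ConnectedSpace (D.cov Γ) →
    ∀ (N : Subgroup Γ) [N.Normal] (q : ℕ) (Z : AQ D N q), Top Z →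
    ∀ (M : Subgroup Γ), M.Normal → FI M (MG Z) →
    ∀ (H : Type) [NormedAddCommGroup H] [InnerProductSpace ℂ H] [CompleteSpace H] (a : Act M H),
      (∀ m : M, (m : Γ) ∈ N → ∀ x, a.α m x = x) → Nonempty (Rel.Min D Z.a a N)

/-- B4 (helper2) -/
def NIStmt : Prop := FamStmt →
  ∀ (n : ℕ) (X : Type) [TopologicalSpace X] [T2Space X] [CompactSpace X] [ConnectedSpace X]
    (A : Atl n X) [Finite A.ι], GoodA A → Part A → Kah A →
    ∀ (Γ : Type) [Group Γ] (D : MonD A Γ), ConnectedSpace (D.cov Γ) →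
    ∀ (N : Subgroup Γ) [N.Normal], JN (Γ ⧸ N) → ∀ (q : ℕ) (Z : AQ D N q), Top Z → Fb Z →
      ¬ VInd (KG Z)

/-- REL (helper34) -/
def RelStmt : Prop := FamStmt →
  ∀ (n : ℕ) (X : Type) [TopologicalSpace X] [T2Space X] [CompactSpace X] [ConnectedSpace X]
    (A : Atl n X) [Finite A.ι], GoodA A → Part A → Kah A →
    ∀ (Γ : Type) [Group Γ] (D : MonD A Γ), ConnectedSpace (D.cov Γ) →
    ∀ (N : Subgroup Γ) [N.Normal], JN (Γ ⧸ N) → Amen (Γ ⧸ N) →
    ∀ (q : ℕ) (Z : AQ D N q), Top Z → Fb Z → Infinite (KG Z) → ¬ VInd (KG Z) →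
      ∃ (H : Type) (_ : NormedAddCommGroup H) (_ : InnerProductSpace ℂ H) (_ : CompleteSpace H)
        (Φ : Gauss.Frm D q H), Nonempty (Gauss.Up Φ N) ∧ Φ.NoFix (MG Z)

end

end Crest.Agent.X261.B88
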