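import Crest.Agent.X261.B88.Bas

/-!
# Row 261, B (helper88), file `Fib`: connected regular fibres from the induction of FIB
-/

set_option autoImplicit false
set_option linter.unusedSectionVars false

open Set Filter Topology

namespace Crest.Agent.X261.B88

open Crest.Agent.R275.Geo Crest.Agent.R275.Core144 Crest.Agent.R275.GC293
open Crest.Agent.R273.Defs_333 Crest.Agent.R273.Kah_333 Crest.Agent.R273.UCov_914
open Crest.Agent.X261.Grp Crest.Agent.X261.End
open Crest.Agent.X261.Fib.Mn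

variable {n : ℕ} {X : Type} [TopologicalSpace X] {A : Atl n X} {Γ : Type} [Group Γ]
  {D : MonD A Γ} {N : Subgroup Γ} {q : ℕ}

theorem fb_of [CompactSpace X] [T2Space X] [Finite A.ι] [PreconnectedSpace (D.cov Γ)]
    (Z : AQ D N q) (hT : Top Z) (h : Conn Z.a (LE Z) fun g => (Z.lam g).ofLp) : Fb Z := by
  obtain ⟨D1, h1, h2, -, h3, h4⟩ := h
  obtain ⟨t, ht⟩ := h2.dense_compl.nonempty
  refine ⟨(fun w : Cn q => w.ofLp) ⁻¹' D1ᶜ,
    h1.isOpen_compl.preimage (EuclideanSpace.equiv (Fin q) ℂ).continuous,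
    ⟨WithLp.toLp 2 t, ht⟩, fun s hs => ⟨surj_a Z hT s, ?_, fun e he => h3 e (he ▸ hs)⟩⟩
  convert h4 _ hs using 1
  ext e
  exact ⟨fun h => congrArg WithLp.ofLp h, fun h => congrArg (WithLp.toLp 2) h⟩

/-- the three inputs of the induction -/
def FibIn : Prop :=
  ∀ (n : ℕ) (X : Type) [TopologicalSpace X] [T2Space X] [CompactSpace X] [ConnectedSpace X]
    (A : Atl n X) [Finite A.ι], GoodA A → Part A → Kah A → E0.NoBog A → Bog.NoBog A →
    ∀ (Γ : Type) [Group Γ] (D : MonD A Γ), ConnectedSpace (D.cov Γ) →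
    ∀ (H : Subgroup Γ), H.Normal → H.FiniteIndex → Dich D ∧ NBig D H ∧ SepH D H

theorem fibStmt_of (h : FibIn) : FibStmt := by
  intro n X _ _ _ _ A _ hA P K h0 hB Γ _ D hc N q Z hT
  have := Z.fi
  obtain ⟨h1, h2, h3⟩ := h n X A hA P K h0 hB Γ D hc Z.H Z.normal Z.fi
  exact fb_of Z hT (conn_of h1 h2 h3 q _ _ _ (dat Z hT))

end Crest.Agent.X261.B88
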