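import Crest.Agent.X261.B88.Main
import Crest.Agent.X261.B88.Fib
import Crest.Agent.X261.End.Main
import Crest.Agent.X261.Fib.HorS
import Crest.Agent.X261.Fib.Big
import Crest.Agent.X261.Ans.Man1

/-!
# Row 261, B (helper88), file `Fin`: the proved packages are plugged in
-/

set_option autoImplicit false
set_option linter.unusedSectionVars false

namespace Crest.Agent.X261.B88

open Crest.Agent.R275.Geo Crest.Agent.R275.GC293
open Crest.Agent.R273.Kah_333 Crest.Agent.R273.UCov_914
open Crest.Agent.X261.Fib.Mn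

theorem setupStmt : SetupStmt := fun _ _ _ _ _ _ _ _ hA P K _ hN _ _ D _ N _ =>
  End.setup' D hA P K hN N

/-- the separation of the components of the fibres -/
def SepStmt : Prop :=
  ∀ (n : ℕ) (X : Type) [TopologicalSpace X] [T2Space X] [CompactSpace X] [ConnectedSpace X]
    (A : Atl n X) [Finite A.ι], GoodA A → Part A → Kah A →
    ∀ (Γ : Type) [Group Γ] (D : MonD A Γ), ConnectedSpace (D.cov Γ) →
    ∀ (H : Subgroup Γ), H.Normal → H.FiniteIndex → SepH D H

theorem fibStmt_of_sep (h : SepStmt) : FibStmt :=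
  fibStmt_of fun n X _ _ _ _ A _ hA P K _ hB Γ _ D hc H h1 h2 =>
    have := (Ans.HA.of (D.atl Γ)).locallyConnected
    ⟨fun _ S => S.dich, not_big hB, h n X A hA P K Γ D hc H h1 h2⟩

theorem halfB_of' (hS : SepStmt) (hM : FamStmt) (hN : NIStmt) (hR : Rel.RelStmt)
    (hG : Gauss.GaussStmt) : Sk.HalfB :=
  halfB_of setupStmt (fibStmt_of_sep hS) hM hN (relStmt_of hR) hG

end Crest.Agent.X261.B88
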