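import Crest.Agent.X261.B88.Bas
import Crest.Agent.X261.Rel.Stm
import Crest.Agent.X261.Sk.Defs

/-!
# Row 261, B (helper88), file `Main`: the amenable half from its packages

* `stp`, `stp_fb` : the setup of REL; `relStmt_of : Rel.RelStmt → RelStmt`;
* `halfB_of`.
-/

set_option autoImplicit false
set_option linter.unusedSectionVars false

open Set Filter Topology

namespace Crest.Agent.X261.B88

open Crest.Agent.R275.Geo Crest.Agent.R275.Core144
open Crest.Agent.R273.UCov_914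
open Crest.Agent.R281.ThnM_280 (Crit)
open Crest.Agent.X261.Grp Crest.Agent.X261.End
open Crest.Agent.X261.Rel (Stp)

noncomputable section

variable {n : ℕ} {X : Type} [TopologicalSpace X] {A : Atl n X} {Γ : Type} [Group Γ]
  {D : MonD A Γ} {N : Subgroup Γ} {q : ℕ} (Z : AQ D N q)

theorem norm_det' (g : Γ) : ‖(Z.L g).det‖ = 1 := by
  have := Z.fi
  obtain ⟨k, h1, h2⟩ := (FI.of_finiteIndex Z.H).pow_mem (Subgroup.mem_top g)
  have h3 : ((Z.L g : Cn q →ₗ[ℂ] Cn q)) ^ k = 1 := by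
    rw [← ContinuousLinearMap.toLinearMap_pow, ← map_pow, Z.LH _ h2]; rfl
  have h4 := congrArg (fun f : Cn q →ₗ[ℂ] Cn q => ‖LinearMap.det f‖) h3
  simp only [map_pow, map_one, norm_pow, norm_one] at h4
  exact (pow_eq_one_iff_of_nonneg (norm_nonneg _) h1.ne').1 h4

/-- the setup of REL -/
def stp [Nonempty (D.cov Γ)] {M : Subgroup Γ} (hM : M ≤ MG Z) : Stp D q M where
  al := Z.a
  L := Z.L
  lam := Z.lam
  hol := Z.hol
  eqv := Z.eqv
  det := norm_det' Z
  L_M g hg := Z.LH g (hM hg).1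
  lam_M _ hg := ((mem_MG Z).1 (hM hg)).2

theorem stp_fb [CompactSpace X] [T2Space X] [Finite A.ι] [Nonempty (D.cov Γ)] {Z : AQ D N q}
    (h : Fb Z) {M : Subgroup Γ} (hM : FI M (MG Z)) : Nonempty (stp Z hM.le).Fb := by
  obtain ⟨O, h1, ⟨t, ht⟩, h2⟩ := h
  refine ⟨⟨O, h1, ?_, fun s hs => (h2 s hs).2.1,
    fun i v x hx hO => dW_ne Z hx ((h2 _ hO).2.2 _ rfl), fun s _ => ?_⟩⟩
  · obtain ⟨e, he⟩ := (h2 t ht).1
    exact ⟨e, show Z.a e ∈ O from (show Z.a e = t from he) ▸ ht⟩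
  · exact prop_fi Z hM (isCompact_singleton (x := s))

/-- the map onto the image in the quotient -/
def toQ (M N : Subgroup Γ) [N.Normal] : M →* M.map (QuotientGroup.mk' N) :=
  (QuotientGroup.mk' N).subgroupMap M

theorem toQ_surj (M N : Subgroup Γ) [N.Normal] : Function.Surjective (toQ M N) :=
  MonoidHom.subgroupMap_surjective _ _

theorem toQ_N {M N : Subgroup Γ} [N.Normal] {m : M} (h : (m : Γ) ∈ N) : toQ M N m = 1 :=
  Subtype.ext ((QuotientGroup.eq_one_iff (m : Γ)).2 h)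

theorem relStmt_of (hR : Rel.RelStmt) : RelStmt := by
  intro hF n X _ _ _ _ A _ hA P K Γ _ D hc N _ _ hAm q Z hT hb hI hV
  have : Group.FG (KG Z) := (Group.fg_iff_subgroup_fg _).2 (fg_KG hb)
  obtain ⟨a, ha⟩ := Rel.Act.exists_act (KG Z) (hAm.subgroup _)
  have hN : ∀ m : MG Z, (m : Γ) ∈ N → ∀ x, (a.comap (toQ (MG Z) N)).α m x = x := fun m hm x =>
    (congrArg (fun k => a.α k x) (toQ_N hm)).trans (a.α_one x)
  obtain ⟨m⟩ := hF n X A hA P K Γ D hc N q Z hT (MG Z) inferInstance (FI.refl _) _ _ hN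
  obtain ⟨b⟩ := stp_fb hb (FI.refl _)
  exact hR n X A Γ D hc q (MG Z) N (stp Z le_rfl) b _ _ m (ha.comap (toQ_surj _ _)) hN
    (amen_quot Z) (fun g hg => Z.LH g (Z.le hg)) (fun g hg h0 => (mem_MG Z).2 ⟨Z.le hg, h0⟩)
    (up_sub Z) hV

/-- **the amenable half** -/
theorem halfB_of (hS : SetupStmt) (hF : FibStmt) (hM : FamStmt) (hN : NIStmt) (hR : RelStmt)
    (hG : Gauss.GaussStmt) : Sk.HalfB := by
  intro n X _ _ _ _ A _ hA P H hH h0 hB Γ _ D hc N _ hJ hAm p _ _ F h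
  have K := R281.Kp_487.kah H hH
  have hc' : ConnectedSpace (D.cov Γ) := inferInstance
  obtain ⟨q, Z, hT⟩ := hS n X A hA P K h0 hB Γ D hc N
  have hb := hF n X A hA P K h0 hB Γ D hc' N q Z hT
  have hV := hN hM n X A hA P K Γ D hc' N hJ q Z hT hb
  have hI := infinite_KG Z hJ
  obtain ⟨W, _, _, _, Φ, ⟨U⟩, hfix⟩ := hR hM n X A hA P K Γ D hc' N hJ hAm q Z hT hb hI hV
  exact hG n X A Γ D hc' N hJ hAm (MG Z) (normal_KG Z) hI (fg_KG hb) hV q W Φ U hfix p F h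

end

end Crest.Agent.X261.B88
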